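import Vale.Agent.P039.Sk.Basic
import Mathlib.LinearAlgebra.Dimension.Constructions
import Mathlib.LinearAlgebra.FiniteDimensional.Lemmas
import Mathlib.Data.Real.Basic
import Mathlib.Algebra.Order.BigOperators.Ring.Finset
import Mathlib.Tactic.Linarith
import Mathlib.Tactic.Ring
import Mathlib.Tactic.Module

/-! A perfect matching of a cubic bipartite map whose edges are owned by different faces, two faces
at `b0` owning nothing: its complement is one cycle. -/

namespace Vale.Agent.P039.H551

open Sk Finset

variable {B W V : Type}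

/-- `(S, T)` is closed under the edges `(b, j)`, `j ≠ m b`. -/
def Clo (X : Web B W) (m : B → Fin 3) (S : Set B) (T : Set W) : Prop :=
  ∀ b j, j ≠ m b → (b ∈ S ↔ X.e j b ∈ T)

/-- Some Hamiltonian cycle avoids the edge of colour `i` at `b`. -/
def HA (X : Web B W) (b : B) (i : Fin 3) : Prop :=
  ∃ m : B → Fin 3, m b = i ∧ Function.Bijective (fun b => X.e (m b) b) ∧
    ∀ (S : Set B) (T : Set W), Clo X m S T → S.Nonempty → ∀ b, b ∈ S

/-- The graph of the web is connected. -/
def GC (X : Web B W) : Prop :=
  ∀ (S : Set B) (T : Set W), (∀ b j, b ∈ S ↔ X.e j b ∈ T) → S.Nonempty → ∀ b, b ∈ S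

/-- the face of class `j` at the white vertex `w` -/
def cw {X : Web B W} (L : Lab X V) (j : Fin 3) (w : W) : V := L.c j ((X.e (j + 1)).symm w)

theorem cw_e1 {X : Web B W} (L : Lab X V) (j : Fin 3) (b : B) :
    cw L j (X.e (j + 1) b) = L.c j b := by
  simp [cw]

theorem cw_e2 {X : Web B W} (L : Lab X V) (j : Fin 3) (b : B) :
    cw L j (X.e (j + 2) b) = L.c j b := by
  unfold cw
  exact L.step j _ _ (by simp)

theorem cw_symm1 {X : Web B W} (L : Lab X V) (i : Fin 3) (w : W) :
    L.c (i + 1) ((X.e i).symm w) = cw L (i + 1) w := by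
  have := cw_e2 L (i + 1) ((X.e i).symm w)
  rw [f12, Equiv.apply_symm_apply] at this
  exact this.symm

theorem cw_symm2 {X : Web B W} (L : Lab X V) (i : Fin 3) (w : W) :
    L.c (i + 2) ((X.e i).symm w) = cw L (i + 2) w := by
  have := cw_e1 L (i + 2) ((X.e i).symm w)
  rw [f21, Equiv.apply_symm_apply] at this
  exact this.symm

theorem cw_i1 {X : Web B W} (L : Lab X V) (i : Fin 3) (b : B) :
    cw L (i + 1) (X.e i b) = L.c (i + 1) b := by
  rw [← cw_symm1, Equiv.symm_apply_apply]

theorem cw_i2 {X : Web B W} (L : Lab X V) (i : Fin 3) (b : B) :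
    cw L (i + 2) (X.e i b) = L.c (i + 2) b := by
  rw [← cw_symm2, Equiv.symm_apply_apply]

theorem eqvGen_iff {A : Type} {r : A → A → Prop} {P : A → Prop}
    (h : ∀ x y, r x y → (P x ↔ P y)) {x y : A} (hxy : Relation.EqvGen r x y) : P x ↔ P y := by
  induction hxy with
  | rel x y hr => exact h x y hr
  | refl x => exact Iff.rfl
  | symm x y _ ih => exact ih.symm
  | trans x y z _ _ ih1 ih2 => exact ih1.trans ih2

/-- telescoping over the three colours -/
theorem tele3 (a : Fin 3 → ℝ) : ∑ i, (a (i + 2) - a (i + 1)) = 0 := by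
  rw [Finset.sum_sub_distrib]
  have h1 : ∑ i, a (i + 2) = ∑ i, a i :=
    Fintype.sum_equiv (Equiv.addRight (2 : Fin 3)) _ _ (fun _ => rfl)
  have h2 : ∑ i, a (i + 1) = ∑ i, a i :=
    Fintype.sum_equiv (Equiv.addRight (1 : Fin 3)) _ _ (fun _ => rfl)
  rw [h1, h2, sub_self]

/-- Gradients of functions on the faces are orthogonal to gradients of functions on the
vertices. -/
theorem orth [Fintype B] [Fintype W] {X : Web B W} (L : Lab X V) (h : V → ℝ) (α : B → ℝ)
    (β : W → ℝ) :
    ∑ i, ∑ b, (h (L.c (i + 2) b) - h (L.c (i + 1) b)) * (α b - β (X.e i b)) = 0 := by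
  have h1 : ∑ i, ∑ b, (h (L.c (i + 2) b) - h (L.c (i + 1) b)) * α b = 0 := by
    rw [Finset.sum_comm]
    apply Finset.sum_eq_zero
    intro b _
    rw [← Finset.sum_mul, tele3 (fun j => h (L.c j b)), zero_mul]
  have h2 : ∑ i, ∑ b, (h (L.c (i + 2) b) - h (L.c (i + 1) b)) * β (X.e i b) = 0 := by
    have : ∀ i, ∑ b, (h (L.c (i + 2) b) - h (L.c (i + 1) b)) * β (X.e i b) =
        ∑ w, (h (cw L (i + 2) w) - h (cw L (i + 1) w)) * β w := by
      intro i
      refine Fintype.sum_equiv (X.e i) _ _ (fun b => ?_)
      rw [cw_i1, cw_i2]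
    simp only [this]
    rw [Finset.sum_comm]
    apply Finset.sum_eq_zero
    intro w _
    rw [← Finset.sum_mul, tele3 (fun j => h (cw L j w)), zero_mul]
  have h3 : ∀ i b, (h (L.c (i + 2) b) - h (L.c (i + 1) b)) * (α b - β (X.e i b)) =
      (h (L.c (i + 2) b) - h (L.c (i + 1) b)) * α b -
      (h (L.c (i + 2) b) - h (L.c (i + 1) b)) * β (X.e i b) := fun i b => by ring
  simp only [h3, Finset.sum_sub_distrib, h1, h2, sub_self]

/-- extension by zero -/
noncomputable def ext {A : Type} (P : Finset A) (f : P → ℝ) (a : A) : ℝ := by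
  classical exact if h : a ∈ P then f ⟨a, h⟩ else 0

theorem ext_mem {A : Type} {P : Finset A} (f : P → ℝ) {a : A} (h : a ∈ P) :
    ext P f a = f ⟨a, h⟩ := by
  unfold ext; rw [dif_pos h]

theorem ext_nm {A : Type} {P : Finset A} (f : P → ℝ) {a : A} (h : a ∉ P) : ext P f a = 0 := by
  unfold ext; rw [dif_neg h]

theorem ext_add {A : Type} {P : Finset A} (f g : P → ℝ) (a : A) :
    ext P (f + g) a = ext P f a + ext P g a := by
  by_cases h : a ∈ P
  · rw [ext_mem _ h, ext_mem _ h, ext_mem _ h]; rfl
  · rw [ext_nm _ h, ext_nm _ h, ext_nm _ h, add_zero]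

theorem ext_smul {A : Type} {P : Finset A} (r : ℝ) (f : P → ℝ) (a : A) :
    ext P (r • f) a = r * ext P f a := by
  by_cases h : a ∈ P
  · rw [ext_mem _ h, ext_mem _ h]; rfl
  · rw [ext_nm _ h, ext_nm _ h, mul_zero]

/-- the sum of the two gradients -/
noncomputable def psi {X : Web B W} (L : Lab X V) (P : Finset V) (QB : Finset B) (QW : Finset W)
    (E : Finset (B × Fin 3)) : ((P → ℝ) × (QB → ℝ) × (QW → ℝ)) →ₗ[ℝ] (E → ℝ) where
  toFun x p := (ext P x.1 (L.c (p.1.2 + 2) p.1.1) - ext P x.1 (L.c (p.1.2 + 1) p.1.1)) +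
    (ext QB x.2.1 p.1.1 - ext QW x.2.2 (X.e p.1.2 p.1.1))
  map_add' x y := by
    funext p
    simp only [Prod.fst_add, Prod.snd_add, ext_add, Pi.add_apply]
    ring
  map_smul' r x := by
    funext p
    simp only [Prod.smul_fst, Prod.smul_snd, ext_smul, Pi.smul_apply, smul_eq_mul, RingHom.id_apply]
    ring

theorem ham_of_own [Fintype B] [Fintype W] [Fintype V] {X : Web B W} (L : Lab X V) (hG : GC X)
    (m : B → Fin 3) (hm : Function.Bijective (fun b => X.e (m b) b)) (own : B → V)
    (hinj : Function.Injective own) (hown : ∀ b, ∃ j, j ≠ m b ∧ own b = L.c j b) (b0 : B)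
    (v1 v2 : V) (h12 : v1 ≠ v2) (h1 : ∃ j, L.c j b0 = v1) (h2 : ∃ j, L.c j b0 = v2)
    (n1 : ∀ b, own b ≠ v1) (n2 : ∀ b, own b ≠ v2) :
    ∀ (S : Set B) (T : Set W), Clo X m S T → S.Nonempty → ∀ b, b ∈ S := by
  classical
  let R : B ⊕ W → B ⊕ W → Prop := fun x y => ∃ b j, j ≠ m b ∧ x = Sum.inl b ∧ y = Sum.inr (X.e j b)
  let Q : B ⊕ W → Prop := fun x => Relation.EqvGen R (Sum.inl b0) x
  have hQR : ∀ x y, R x y → (Q x ↔ Q y) := fun x y hxy =>
    ⟨fun h => h.trans _ _ _ (Relation.EqvGen.rel _ _ hxy),
      fun h => h.trans _ _ _ (Relation.EqvGen.symm _ _ (Relation.EqvGen.rel _ _ hxy))⟩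
  have hQ0 : Q (Sum.inl b0) := Relation.EqvGen.refl _
  have hcl : ∀ b j, j ≠ m b → (Q (Sum.inl b) ↔ Q (Sum.inr (X.e j b))) := fun b j hj =>
    hQR _ _ ⟨b, j, hj, rfl, rfl⟩
  -- the core: the component of `b0` is everything
  have core : ∀ b, Q (Sum.inl b) := by
    by_contra hne
    push Not at hne
    obtain ⟨bx, hbx⟩ := hne
    let QB : Finset B := univ.filter (fun b => Q (Sum.inl b))
    let QW : Finset W := univ.filter (fun w => Q (Sum.inr w))
    have memB : ∀ b, b ∈ QB ↔ Q (Sum.inl b) := fun b => by simp [QB]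
    have memW : ∀ w, w ∈ QW ↔ Q (Sum.inr w) := fun w => by simp [QW]
    let E : Finset (B × Fin 3) := univ.filter (fun p => p.1 ∈ QB ∨ X.e p.2 p.1 ∈ QW)
    have memE : ∀ b i, (b, i) ∈ E ↔ b ∈ QB ∨ X.e i b ∈ QW := fun b i => by simp [E]
    let MQ : Finset B := univ.filter (fun b => b ∈ QB ∨ X.e (m b) b ∈ QW)
    have memM : ∀ b, b ∈ MQ ↔ b ∈ QB ∨ X.e (m b) b ∈ QW := fun b => by simp [MQ]
    let VQ : Finset V := univ.filter
      (fun v => ∃ p ∈ E, v = L.c (p.2 + 1) p.1 ∨ v = L.c (p.2 + 2) p.1)
    have memV : ∀ v, v ∈ VQ ↔ ∃ b i, (b, i) ∈ E ∧ (v = L.c (i + 1) b ∨ v = L.c (i + 2) b) := by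
      intro v
      simp only [VQ, Finset.mem_filter, Finset.mem_univ, true_and]
      constructor
      · rintro ⟨⟨b, i⟩, hp, h⟩; exact ⟨b, i, hp, h⟩
      · rintro ⟨b, i, hp, h⟩; exact ⟨⟨b, i⟩, hp, h⟩
    have hb0 : b0 ∈ QB := (memB b0).2 hQ0
    have hv1 : v1 ∈ VQ := by
      obtain ⟨j, hj⟩ := h1
      refine (memV v1).2 ⟨b0, j + 1, (memE _ _).2 (Or.inl hb0), Or.inr ?_⟩
      rw [f12, hj]
    have hv2 : v2 ∈ VQ := by
      obtain ⟨j, hj⟩ := h2
      refine (memV v2).2 ⟨b0, j + 1, (memE _ _).2 (Or.inl hb0), Or.inr ?_⟩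
      rw [f12, hj]
    -- (II)
    have hII : MQ.card + 2 ≤ VQ.card := by
      have hsub : insert v1 (insert v2 (MQ.image own)) ⊆ VQ := by
        intro v hv
        rw [Finset.mem_insert, Finset.mem_insert, Finset.mem_image] at hv
        rcases hv with rfl | rfl | ⟨b, hb, rfl⟩
        · exact hv1
        · exact hv2
        · obtain ⟨j, hj, hjo⟩ := hown b
          refine (memV _).2 ⟨b, m b, (memE _ _).2 ((memM b).1 hb), ?_⟩
          rcases fcase j (m b) with h | h | h
          · exact absurd h hj
          · left; rw [hjo, h]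
          · right; rw [hjo, h]
      have hc := Finset.card_le_card hsub
      rw [Finset.card_insert_of_notMem, Finset.card_insert_of_notMem,
        Finset.card_image_of_injective _ hinj] at hc
      · omega
      · rw [Finset.mem_image]; rintro ⟨b, _, hb⟩; exact n2 b hb
      · rw [Finset.mem_insert, Finset.mem_image]
        rintro (h | ⟨b, _, hb⟩)
        · exact h12 h
        · exact n1 b hb
    -- counting
    have hsum3 : ∀ (F : Fin 3 → ℕ) (k : Fin 3), ∑ i, F i = F k + F (k + 1) + F (k + 2) := by
      intro F k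
      have h : ∑ i, F (k + i) = ∑ i, F i :=
        Fintype.sum_equiv (Equiv.addLeft k) _ _ (fun _ => rfl)
      rw [← h, Fin.sum_univ_three, add_zero]
    have hcardE : E.card = 2 * QB.card + MQ.card := by
      have e1 : E.card = ∑ b, ∑ i, (if b ∈ QB ∨ X.e i b ∈ QW then 1 else 0) := by
        rw [Finset.card_filter, Fintype.sum_prod_type]
      have e2 : ∀ b, ∑ i, (if b ∈ QB ∨ X.e i b ∈ QW then 1 else 0) =
          2 * (if b ∈ QB then 1 else 0) + (if b ∈ MQ then 1 else 0) := by
        intro b
        rw [hsum3 _ (m b)]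
        have c1 : (b ∈ QB ∨ X.e (m b + 1) b ∈ QW) ↔ b ∈ QB := by
          rw [memB, memW, ← hcl b (m b + 1) (fne1 _), or_self]
        have c2 : (b ∈ QB ∨ X.e (m b + 2) b ∈ QW) ↔ b ∈ QB := by
          rw [memB, memW, ← hcl b (m b + 2) (by
            have := f21 (m b); intro h; rw [h] at this; exact fne1 _ this), or_self]
        simp only [c1, c2, ← memM]
        ring
      rw [e1, Finset.sum_congr rfl (fun b _ => e2 b), Finset.sum_add_distrib, ← Finset.mul_sum]
      congr 1
      · congr 1
        rw [← Finset.card_filter]; congr 1; ext b; simp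
      · rw [← Finset.card_filter]; congr 1; ext b; simp
    have hcardW : QW.card = QB.card := by
      have e1 : ∑ b, ∑ i, (if X.e i b ∈ QW then 1 else 0) = 3 * QW.card := by
        rw [Finset.sum_comm]
        have : ∀ i, ∑ b, (if X.e i b ∈ QW then 1 else 0) = QW.card := by
          intro i
          rw [Fintype.sum_equiv (X.e i) _ (fun w => if w ∈ QW then 1 else 0) (fun _ => rfl),
            ← Finset.card_filter]
          congr 1; ext w; simp
        simp only [this, Finset.sum_const, Finset.card_univ, Fintype.card_fin, smul_eq_mul]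
      have e2 : ∀ b, ∑ i, (if X.e i b ∈ QW then 1 else 0) =
          (if X.e (m b) b ∈ QW then 1 else 0) + 2 * (if b ∈ QB then 1 else 0) := by
        intro b
        rw [hsum3 _ (m b)]
        have c1 : (X.e (m b + 1) b ∈ QW) ↔ b ∈ QB := by
          rw [memB, memW, ← hcl b (m b + 1) (fne1 _)]
        have c2 : (X.e (m b + 2) b ∈ QW) ↔ b ∈ QB := by
          rw [memB, memW, ← hcl b (m b + 2) (by
            have := f21 (m b); intro h; rw [h] at this; exact fne1 _ this)]
        simp only [c1, c2]
        ring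
      have e3 : ∑ b, (if X.e (m b) b ∈ QW then 1 else 0) = QW.card := by
        rw [Fintype.sum_bijective _ hm _ (fun w => if w ∈ QW then 1 else 0) (fun _ => rfl),
          ← Finset.card_filter]
        congr 1; ext w; simp
      have e4 : ∑ b, (if b ∈ QB then 1 else 0) = QB.card := by
        rw [← Finset.card_filter]; congr 1; ext w; simp
      rw [Finset.sum_congr rfl (fun b _ => e2 b), Finset.sum_add_distrib, ← Finset.mul_sum, e3,
        e4] at e1
      omega
    -- (I)
    have hI : (VQ.erase v1).card + (QB.card + QW.card) ≤ E.card := by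
      have hker : Function.Injective (psi L (VQ.erase v1) QB QW E) := by
        rw [injective_iff_map_eq_zero]
        rintro ⟨h, α, β⟩ hx
        have hE : ∀ b i, (b, i) ∈ E → (ext (VQ.erase v1) h (L.c (i + 2) b) -
            ext (VQ.erase v1) h (L.c (i + 1) b)) + (ext QB α b - ext QW β (X.e i b)) = 0 :=
          fun b i hb => congrFun hx ⟨(b, i), hb⟩
        have hnE : ∀ b i, (b, i) ∉ E → ext QB α b - ext QW β (X.e i b) = 0 := by
          intro b i hb
          rw [memE, not_or] at hb
          rw [ext_nm _ hb.1, ext_nm _ hb.2, sub_zero]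
        have ho := orth L (ext (VQ.erase v1) h) (ext QB α) (ext QW β)
        have hsq : ∑ i, ∑ b, (ext QB α b - ext QW β (X.e i b)) ^ 2 = 0 := by
          rw [← neg_eq_zero, ← ho, ← Finset.sum_neg_distrib]
          refine Finset.sum_congr rfl fun i _ => ?_
          rw [← Finset.sum_neg_distrib]
          refine Finset.sum_congr rfl fun b _ => ?_
          by_cases hb : (b, i) ∈ E
          · have := hE b i hb
            have h' : ext (VQ.erase v1) h (L.c (i + 2) b) - ext (VQ.erase v1) h (L.c (i + 1) b) =
              - (ext QB α b - ext QW β (X.e i b)) := by linarith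
            rw [h']; ring
          · rw [hnE b i hb]; ring
        have hd : ∀ i b, ext QB α b = ext QW β (X.e i b) := by
          intro i b
          have a1 := (Finset.sum_eq_zero_iff_of_nonneg (fun i _ =>
            Finset.sum_nonneg (fun b _ => sq_nonneg _))).1 hsq i (Finset.mem_univ _)
          have a2 := (Finset.sum_eq_zero_iff_of_nonneg (fun b _ => sq_nonneg _)).1 a1 b
            (Finset.mem_univ _)
          have a3 := pow_eq_zero_iff (two_ne_zero) |>.1 a2
          linarith
        have hα : ∀ b, ext QB α b = 0 := by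
          intro b
          refine hG {b | ext QB α b = 0} {w | ext QW β w = 0} (fun b j => ?_) ⟨bx, ?_⟩ b
          · change ext QB α b = 0 ↔ ext QW β (X.e j b) = 0
            rw [hd j b]
          · exact ext_nm _ (fun h => hbx ((memB _).1 h))
        have hβ : ∀ w, ext QW β w = 0 := by
          intro w
          have := hd 0 ((X.e 0).symm w)
          rw [Equiv.apply_symm_apply, hα] at this
          exact this.symm
        have hh : ∀ b i, (b, i) ∈ E → ext (VQ.erase v1) h (L.c (i + 2) b) =
            ext (VQ.erase v1) h (L.c (i + 1) b) := by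
          intro b i hb
          have := hE b i hb
          rw [hα, hβ] at this
          linarith
        have hv1z : ext (VQ.erase v1) h v1 = 0 := ext_nm _ (Finset.notMem_erase _ _)
        -- three equal values
        have h3 : ∀ (a : Fin 3 → ℝ), (∀ i, a (i + 2) = a (i + 1)) → ∀ i j, a i = a j := by
          intro a ha
          have e0 := ha 0
          have e1 := ha 1
          have e2 := ha 2
          have z : ∀ i, a i = a 0 := by
            intro i
            have q1 : a 2 = a 1 := e0
            have q2 : a 0 = a 2 := e1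
            have q3 : a 1 = a 0 := e2
            fin_cases i
            · rfl
            · exact q3
            · exact q2.symm
          intro i j
          rw [z i, z j]
        let P : B ⊕ W → Prop := fun x => Q x ∧ Sum.elim (fun b => ∀ j, ext (VQ.erase v1) h (L.c j b) = 0)
          (fun w => ∀ j, ext (VQ.erase v1) h (cw L j w) = 0) x
        have hblack : ∀ b, Q (Sum.inl b) → ∀ i j, ext (VQ.erase v1) h (L.c i b) =
            ext (VQ.erase v1) h (L.c j b) := by
          intro b hb
          exact h3 (fun j => ext (VQ.erase v1) h (L.c j b))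
            (fun i => hh b i ((memE _ _).2 (Or.inl ((memB b).2 hb))))
        have hwhite : ∀ w, Q (Sum.inr w) → ∀ i j, ext (VQ.erase v1) h (cw L i w) =
            ext (VQ.erase v1) h (cw L j w) := by
          intro w hw
          refine h3 (fun j => ext (VQ.erase v1) h (cw L j w)) (fun i => ?_)
          have := hh ((X.e i).symm w) i ((memE _ _).2 (Or.inr (by
            rw [Equiv.apply_symm_apply]; exact (memW w).2 hw)))
          rw [cw_symm1, cw_symm2] at this
          exact this
        have hP0 : P (Sum.inl b0) := by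
          refine ⟨hQ0, fun j => ?_⟩
          obtain ⟨j1, hj1⟩ := h1
          rw [hblack b0 hQ0 j j1, hj1, hv1z]
        have hPinv : ∀ x y, R x y → (P x ↔ P y) := by
          rintro x y ⟨b, j, hj, rfl, rfl⟩
          constructor
          · rintro ⟨hq, hz⟩
            have hq' := (hcl b j hj).1 hq
            refine ⟨hq', fun k => ?_⟩
            rw [hwhite _ hq' k (j + 1), cw_i1]
            exact hz _
          · rintro ⟨hq, hz⟩
            have hq' := (hcl b j hj).2 hq
            refine ⟨hq', fun k => ?_⟩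
            rw [hblack _ hq' k (j + 1), ← cw_i1]
            exact hz _
        have hPQ : ∀ x, Q x → P x := fun x hx => (eqvGen_iff hPinv hx).1 hP0
        have hhz : ∀ v, ext (VQ.erase v1) h v = 0 := by
          intro v
          by_cases hv : v ∈ VQ
          · obtain ⟨b, i, hb, hv'⟩ := (memV v).1 hv
            rcases (memE b i).1 hb with hb' | hw'
            · have := (hPQ _ ((memB b).1 hb')).2
              rcases hv' with rfl | rfl
              · exact this _
              · exact this _
            · have := (hPQ _ ((memW _).1 hw')).2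
              rcases hv' with rfl | rfl
              · rw [← cw_i1]; exact this _
              · rw [← cw_i2]; exact this _
          · exact ext_nm _ (fun h => hv (Finset.mem_of_mem_erase h))
        refine Prod.ext ?_ (Prod.ext ?_ ?_)
        · funext ⟨v, hv⟩
          change h ⟨v, hv⟩ = 0
          rw [← ext_mem h hv, hhz]
        · funext ⟨v, hv⟩
          change α ⟨v, hv⟩ = 0
          rw [← ext_mem α hv, hα]
        · funext ⟨v, hv⟩
          change β ⟨v, hv⟩ = 0
          rw [← ext_mem β hv, hβ]
      have hf := LinearMap.finrank_le_finrank_of_injective hker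
      rw [Module.finrank_prod, Module.finrank_prod, Module.finrank_fintype_fun_eq_card,
        Module.finrank_fintype_fun_eq_card, Module.finrank_fintype_fun_eq_card,
        Module.finrank_fintype_fun_eq_card, Fintype.card_coe, Fintype.card_coe, Fintype.card_coe,
        Fintype.card_coe] at hf
      exact hf
    rw [Finset.card_erase_of_mem hv1] at hI
    omega
  intro S T hST hne b
  have hP : ∀ (S : Set B) (T : Set W), Clo X m S T → b0 ∈ S → ∀ b, b ∈ S := by
    intro S T hST h0 b
    have := eqvGen_iff (P := Sum.elim (fun b => b ∈ S) (fun w => w ∈ T))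
      (fun x y hxy => by
        obtain ⟨b, j, hj, rfl, rfl⟩ := hxy
        exact hST b j hj) (core b)
    exact this.1 h0
  by_cases h0 : b0 ∈ S
  · exact hP S T hST h0 b
  · exfalso
    obtain ⟨b', hb'⟩ := hne
    have := hP Sᶜ Tᶜ (fun b j hj => not_congr (hST b j hj)) h0 b'
    exact this hb'

end Vale.Agent.P039.H551
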