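import Vale.Agent.P039.H551.Ham
import Vale.Agent.P039.Bz.Stmt
import Mathlib.LinearAlgebra.Matrix.ToLinearEquiv
import Mathlib.LinearAlgebra.Matrix.Determinant.Basic

/-! Step 1: from a good matching to Hamiltonian cycles avoiding each of the three edges at the
root. -/

namespace Vale.Agent.P039.H551

open Bn Bz Finset

variable {B W V : Type}

/-- the web of a map -/
def toWeb (M : PMap B W V) : Sk.Web B W := ⟨M.e⟩

/-- its labelling -/
def toLab (M : PMap B W V) : Sk.Lab (toWeb M) V where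
  c := M.c
  step := M.step
  exact := M.exact
  cls := M.cls
  surj := M.surj

/-- a function on the white vertices which is constant around every black vertex is constant -/
theorem const_of_black (M : PMap B W V) (hc : M.Conn) {A : Type} (n : W → A)
    (h : ∀ b j j', n (M.e j b) = n (M.e j' b)) : ∀ w w', n w = n w' := by
  have h1 : ∀ b b', n (M.e 0 b) = n (M.e 0 b') := by
    intro b b'
    have h2 : ∀ x y, (∃ j, M.c j x = M.c j y) → n (M.e 0 x) = n (M.e 0 y) := by
      rintro x y ⟨j, hj⟩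
      have := M.exact j x y hj
      clear hj
      induction this with
      | rel x y hr => rw [h x 0 (j + 2), h y 0 (j + 1), hr]
      | refl x => rfl
      | symm x y _ ih => exact ih.symm
      | trans x y z _ _ ih1 ih2 => exact ih1.trans ih2
    have := hc b b'
    induction this with
    | rel x y hr => exact h2 x y hr
    | refl x => rfl
    | symm x y _ ih => exact ih.symm
    | trans x y z _ _ ih1 ih2 => exact ih1.trans ih2
  intro w w'
  have := h1 ((M.e 0).symm w) ((M.e 0).symm w')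
  rwa [Equiv.apply_symm_apply, Equiv.apply_symm_apply] at this

theorem gc_of_conn (M : PMap B W V) (hc : M.Conn) : GC (toWeb M) := by
  intro S T hST hne b
  obtain ⟨b', hb'⟩ := hne
  have := const_of_black M hc (fun w => w ∈ T)
    (fun b j j' => propext ((hST b j).symm.trans (hST b j'))) (M.e 0 b) (M.e 0 b')
  have h1 : M.e 0 b ∈ T := by
    rw [show (M.e 0 b ∈ T) = (M.e 0 b' ∈ T) from this]
    exact (hST b' 0).1 hb'
  exact (hST b 0).2 h1

/-- boundary of a function on the white vertices has zero sum around every face -/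
theorem bd_face [Fintype B] [Fintype W] (M : PMap B W V) (h : V → ℝ) (n : W → ℝ) :
    ∑ b, ∑ j, h (M.c j b) * (n (M.e (j + 1) b) - n (M.e (j + 2) b)) = 0 := by
  rw [Finset.sum_comm]
  apply Finset.sum_eq_zero
  intro j _
  simp only [mul_sub]
  rw [Finset.sum_sub_distrib, sub_eq_zero]
  rw [Fintype.sum_equiv (M.e (j + 1)) _ (fun w => h (M.cw j w) * n w)
      (fun b => by rw [M.cw_e1]),
    Fintype.sum_equiv (M.e (j + 2)) _ (fun w => h (M.cw j w) * n w)
      (fun b => by rw [M.cw_e2])]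

section

variable [Fintype B] [Fintype W] [Fintype V] (M : PMap B W V) (b₀ : B)

/-- extension by zero to the root faces -/
noncomputable def ex0 (z : VOff M b₀ → ℝ) (v : V) : ℝ := by
  classical exact if h : ∀ j, M.c j b₀ ≠ v then z ⟨v, h⟩ else 0

variable {M b₀}

theorem ex0_off (z : VOff M b₀ → ℝ) (v : VOff M b₀) : ex0 M b₀ z v.1 = z v := by
  unfold ex0; rw [dif_pos v.2]

theorem ex0_root (z : VOff M b₀ → ℝ) (j : Fin 3) : ex0 M b₀ z (M.c j b₀) = 0 := by
  unfold ex0; rw [dif_neg (fun h => h j rfl)]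

theorem fo_some {b : BOff b₀} {j : Fin 3} {v : VOff M b₀} (h : Fo M b₀ b j = some v) :
    M.c j b.1 = v.1 := by
  unfold Fo at h
  split_ifs at h with hh
  exact congrArg Subtype.val (Option.some.inj h)

theorem fo_of {b : BOff b₀} {j : Fin 3} (v : VOff M b₀) (h : M.c j b.1 = v.1) :
    Fo M b₀ b j = some v := by
  unfold Fo
  have hh : ∀ i, M.c i b₀ ≠ M.c j b.1 := by rw [h]; exact v.2
  rw [dif_pos hh]
  exact congrArg some (Subtype.ext h)

/-- difference of the two faces at `b` which are not chosen by `f` -/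
noncomputable def dd (M : PMap B W V) (b₀ : B) (f : BOff b₀ → Fin 3) :
    (VOff M b₀ → ℝ) →ₗ[ℝ] (BOff b₀ → ℝ) where
  toFun z b := ex0 M b₀ z (M.c (f b + 1) b.1) - ex0 M b₀ z (M.c (f b + 2) b.1)
  map_add' x y := by
    have h : ∀ v, ex0 M b₀ (x + y) v = ex0 M b₀ x v + ex0 M b₀ y v := by
      intro v; unfold ex0; split_ifs <;> simp
    funext b
    simp only [h, Pi.add_apply]; ring
  map_smul' r x := by
    have h : ∀ v, ex0 M b₀ (r • x) v = r * ex0 M b₀ x v := by
      intro v; unfold ex0; split_ifs <;> simp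
    funext b
    simp only [h, Pi.smul_apply, smul_eq_mul, RingHom.id_apply]; ring

theorem dd_inj (f : BOff b₀ → Fin 3) (hg : Good (Fo M b₀) f) :
    Function.Injective (dd M b₀ f) := by
  rw [injective_iff_map_eq_zero]
  intro z hz
  by_contra hne
  have : ∃ v0, z v0 ≠ 0 := by
    by_contra h
    push Not at h
    exact hne (funext h)
  obtain ⟨v0, hv0⟩ := this
  obtain ⟨b, i, j, hi, hj, ⟨v, hvK, hv⟩, hn⟩ := hg {v | z v = z v0} ⟨v0, rfl⟩
  have h1 : ex0 M b₀ z (M.c i b.1) = z v0 := by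
    rw [fo_some hv, ex0_off]; exact hvK
  have h2 : ex0 M b₀ z (M.c j b.1) ≠ z v0 := by
    intro h
    by_cases hr : ∀ k, M.c k b₀ ≠ M.c j b.1
    · have h' := ex0_off z ⟨M.c j b.1, hr⟩
      exact hn ⟨M.c j b.1, hr⟩ (h'.symm.trans h) (fo_of _ rfl)
    · push Not at hr
      obtain ⟨k, hk⟩ := hr
      rw [← hk, ex0_root] at h
      exact hv0 h.symm
  have h3 : ex0 M b₀ z (M.c (f b + 1) b.1) = ex0 M b₀ z (M.c (f b + 2) b.1) := by
    have := congrFun hz b
    exact sub_eq_zero.1 this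
  rcases Bn.fcase i (f b) with e | e | e
  · exact hi e
  · rcases Bn.fcase j (f b) with e' | e' | e'
    · exact hj e'
    · exact h2 (by rw [e', ← e]; exact h1)
    · exact h2 (by rw [e', ← h3, ← e]; exact h1)
  · rcases Bn.fcase j (f b) with e' | e' | e'
    · exact hj e'
    · exact h2 (by rw [e', h3, ← e]; exact h1)
    · exact h2 (by rw [e', ← e]; exact h1)

theorem white_const (hM : M.Conn) (f : BOff b₀ → Fin 3) (hf : Mat (Fo M b₀) f)
    (hg : Good (Fo M b₀) f) (n : W → ℝ)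
    (hn : ∀ b : BOff b₀, n (M.e (f b + 1) b.1) = n (M.e (f b + 2) b.1)) :
    ∀ w w', n w = n w' := by
  classical
  obtain ⟨φ, hφ⟩ := hf
  -- `dd` is surjective
  have hsurj : Function.Surjective (dd M b₀ f) := by
    have hd : Module.finrank ℝ (VOff M b₀ → ℝ) = Module.finrank ℝ (BOff b₀ → ℝ) := by
      rw [Module.finrank_fintype_fun_eq_card, Module.finrank_fintype_fun_eq_card]
      exact (Fintype.card_congr φ).symm
    exact (LinearMap.injective_iff_surjective_of_finrank_eq_finrank hd).1 (dd_inj f hg)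
  let x : B → Fin 3 → ℝ := fun b j => n (M.e (j + 1) b) - n (M.e (j + 2) b)
  have hxf : ∀ b : BOff b₀, x b.1 (f b) = 0 := fun b => by
    change n _ - n _ = 0
    rw [hn b, sub_self]
  have hx2 : ∀ b : BOff b₀, x b.1 (f b + 2) = - x b.1 (f b + 1) := fun b => by
    change n _ - n _ = - (n _ - n _)
    rw [Bn.f21, Bn.f22, Bn.f11, Bn.f12, hn b]
    ring
  have hsum3 : ∀ (F : Fin 3 → ℝ) (k : Fin 3), ∑ i, F i = F k + F (k + 1) + F (k + 2) := by
    intro F k
    have h : ∑ i, F (k + i) = ∑ i, F i :=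
      Fintype.sum_equiv (Equiv.addLeft k) _ _ (fun _ => rfl)
    rw [← h, Fin.sum_univ_three, add_zero]
  -- the sum over all black vertices, the root split off
  have hsplit : ∀ F : B → ℝ, ∑ b, F b = F b₀ + ∑ b : BOff b₀, F b.1 := by
    intro F
    rw [← Finset.add_sum_erase _ _ (Finset.mem_univ b₀)]
    congr 1
    rw [← Finset.sum_subtype (univ.erase b₀) (p := fun b => b ≠ b₀) (by simp) F]
  obtain ⟨z, hz⟩ := hsurj (fun b => x b.1 (f b + 1))
  have hlam : ∀ b : BOff b₀, x b.1 (f b + 1) = 0 := by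
    have h0 := bd_face M (ex0 M b₀ z) n
    rw [hsplit] at h0
    have hb0 : ∑ j, ex0 M b₀ z (M.c j b₀) * (n (M.e (j + 1) b₀) - n (M.e (j + 2) b₀)) = 0 := by
      apply Finset.sum_eq_zero
      intro j _
      rw [ex0_root, zero_mul]
    rw [hb0, zero_add] at h0
    have h1 : ∀ b : BOff b₀, ∑ j, ex0 M b₀ z (M.c j b.1) *
        (n (M.e (j + 1) b.1) - n (M.e (j + 2) b.1)) = (x b.1 (f b + 1)) ^ 2 := by
      intro b
      have hzb : ex0 M b₀ z (M.c (f b + 1) b.1) - ex0 M b₀ z (M.c (f b + 2) b.1) =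
          x b.1 (f b + 1) := congrFun hz b
      have := hsum3 (fun j => ex0 M b₀ z (M.c j b.1) * x b.1 j) (f b)
      simp only [hxf b, hx2 b] at this
      rw [show ∑ j, ex0 M b₀ z (M.c j b.1) * (n (M.e (j + 1) b.1) - n (M.e (j + 2) b.1)) =
        ∑ j, ex0 M b₀ z (M.c j b.1) * x b.1 j from rfl, this]
      rw [show (x b.1 (f b + 1)) ^ 2 = x b.1 (f b + 1) * x b.1 (f b + 1) from sq _]
      nth_rewrite 3 [← hzb]
      ring
    rw [Finset.sum_congr rfl (fun b _ => h1 b)] at h0
    intro b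
    have := (Finset.sum_eq_zero_iff_of_nonneg (fun b _ => sq_nonneg _)).1 h0 b (mem_univ _)
    exact pow_eq_zero_iff (two_ne_zero) |>.1 this
  have hx : ∀ b : BOff b₀, ∀ j, x b.1 j = 0 := by
    intro b j
    rcases Bn.fcase j (f b) with e | e | e
    · rw [e]; exact hxf b
    · rw [e]; exact hlam b
    · rw [e, hx2 b, hlam b, neg_zero]
  have hx0 : ∀ j, x b₀ j = 0 := by
    intro j
    have h0 := bd_face M (fun v => if v = M.c j b₀ then 1 else 0) n
    rw [hsplit] at h0
    have h1 : ∑ b : BOff b₀, ∑ j', (if M.c j' b.1 = M.c j b₀ then (1 : ℝ) else 0) *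
        (n (M.e (j' + 1) b.1) - n (M.e (j' + 2) b.1)) = 0 := by
      apply Finset.sum_eq_zero
      intro b _
      apply Finset.sum_eq_zero
      intro j' _
      have := hx b j'
      rw [show n (M.e (j' + 1) b.1) - n (M.e (j' + 2) b.1) = x b.1 j' from rfl, this, mul_zero]
    rw [h1, add_zero, Finset.sum_eq_single j] at h0
    · rw [if_pos rfl, one_mul] at h0
      exact h0
    · intro j' _ hj'
      rw [if_neg, zero_mul]
      intro h
      exact hj' (M.cls _ _ _ _ h)
    · intro h; exact absurd (mem_univ _) h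
  have hall : ∀ b j, x b j = 0 := by
    intro b j
    by_cases hb : b = b₀
    · rw [hb]; exact hx0 j
    · exact hx ⟨b, hb⟩ j
  refine const_of_black M hM n (fun b => ?_)
  have e0 : n (M.e 1 b) - n (M.e 2 b) = 0 := hall b 0
  have e1 : n (M.e 2 b) - n (M.e 0 b) = 0 := hall b 1
  have z0 : ∀ j, n (M.e j b) = n (M.e 0 b) := by
    intro j
    fin_cases j
    · rfl
    · change n (M.e 1 b) = _; linarith
    · change n (M.e 2 b) = _; linarith
  intro j j'
  rw [z0 j, z0 j']

/-- a perfect matching which avoids the faces chosen by `f`, with prescribed edge at the root -/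
theorem exists_match (hM : M.Conn) (f : BOff b₀ → Fin 3) (hf : Mat (Fo M b₀) f)
    (hg : Good (Fo M b₀) f) (i : Fin 3) :
    ∃ m : B → Fin 3, m b₀ = i ∧ Function.Bijective (fun b => M.e (m b) b) ∧
      ∀ b : BOff b₀, m b.1 ≠ f b := by
  classical
  obtain ⟨A, hA⟩ : ∃ A : Matrix (BOff b₀) (BOff b₀) ℝ, ∀ b b', A b b' =
      (if M.e i b'.1 = M.e (f b + 1) b.1 then 1 else 0) -
      (if M.e i b'.1 = M.e (f b + 2) b.1 then 1 else 0) := ⟨Matrix.of fun b b' =>
      (if M.e i b'.1 = M.e (f b + 1) b.1 then 1 else 0) -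
      (if M.e i b'.1 = M.e (f b + 2) b.1 then 1 else 0), fun _ _ => rfl⟩
  have hdet : A.det ≠ 0 := by
    intro h
    obtain ⟨y, hy0, hy⟩ := Matrix.exists_mulVec_eq_zero_iff.2 h
    apply hy0
    let n : W → ℝ := fun w => if hw : (M.e i).symm w ≠ b₀ then y ⟨(M.e i).symm w, hw⟩ else 0
    have hn' : ∀ w, n w = ∑ b' : BOff b₀, (if M.e i b'.1 = w then 1 else 0) * y b' := by
      intro w
      by_cases hw : (M.e i).symm w ≠ b₀
      · rw [Finset.sum_eq_single (⟨(M.e i).symm w, hw⟩ : BOff b₀)]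
        · simp [n, hw]
        · intro b' _ hb'
          rw [if_neg, zero_mul]
          intro he
          apply hb'
          apply Subtype.ext
          change b'.1 = (M.e i).symm w
          rw [← he, Equiv.symm_apply_apply]
        · intro h; exact absurd (mem_univ _) h
      · rw [Finset.sum_eq_zero]
        · simp only [n]; rw [dif_neg hw]
        · intro b' _
          rw [if_neg, zero_mul]
          intro he
          apply hw
          rw [← he]; simpa using b'.2
    have hn : ∀ b : BOff b₀, n (M.e (f b + 1) b.1) = n (M.e (f b + 2) b.1) := by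
      intro b
      have h0 : ∑ b', A b b' * y b' = 0 := congrFun hy b
      rw [hn', hn', ← sub_eq_zero, ← Finset.sum_sub_distrib]
      refine Eq.trans (Finset.sum_congr rfl fun b' _ => ?_) h0
      rw [hA]
      ring
    have hc := white_const hM f hf hg n hn
    have h0 : n (M.e i b₀) = 0 := by
      simp [n]
    funext b
    have h1 : n (M.e i b.1) = y b := by
      simp only [n]
      rw [dif_pos (by simpa using b.2)]
      congr 1
      apply Subtype.ext
      simp
    rw [← h1, hc _ (M.e i b₀), h0]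
    rfl
  have : ∃ σ : Equiv.Perm (BOff b₀), ∀ b, A (σ b) b ≠ 0 := by
    by_contra hcon
    push Not at hcon
    apply hdet
    rw [Matrix.det_apply]
    apply Finset.sum_eq_zero
    intro σ _
    obtain ⟨b, hb⟩ := hcon σ
    have h0 : ∏ b, A (σ b) b = 0 := Finset.prod_eq_zero (mem_univ b) hb
    exact (congrArg (fun t : ℝ => Equiv.Perm.sign σ • t) h0).trans (smul_zero _)
  obtain ⟨σ, hσ⟩ := this
  let τ : BOff b₀ → BOff b₀ := σ.symm
  have hτ : ∀ b : BOff b₀, M.e i (τ b).1 = M.e (f b + 1) b.1 ∨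
      M.e i (τ b).1 = M.e (f b + 2) b.1 := by
    intro b
    have h := hσ (τ b)
    rw [show σ (τ b) = b from σ.apply_symm_apply b] at h
    by_contra hcon
    rw [not_or] at hcon
    apply h
    rw [hA, if_neg hcon.1, if_neg hcon.2, sub_zero]
  have hm0 : ∀ b : BOff b₀, ∃ j, j ≠ f b ∧ M.e j b.1 = M.e i (τ b).1 := by
    intro b
    rcases hτ b with h | h
    · exact ⟨f b + 1, Bn.fne1 _, h.symm⟩
    · exact ⟨f b + 2, Bn.fne2 _, h.symm⟩
  choose mm hmm1 hmm2 using hm0
  let m : B → Fin 3 := fun b => if hb : b ≠ b₀ then mm ⟨b, hb⟩ else i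
  have mb0 : m b₀ = i := by simp [m]
  have mb : ∀ b : BOff b₀, m b.1 = mm b := by
    intro b
    simp only [m]
    rw [dif_pos b.2]
  refine ⟨m, mb0, ?_, fun b => by rw [mb]; exact hmm1 b⟩
  rw [Fintype.bijective_iff_injective_and_card]
  refine ⟨?_, Fintype.card_congr (M.e 0)⟩
  intro b b' hbb
  change M.e (m b) b = M.e (m b') b' at hbb
  by_cases hb : b = b₀ <;> by_cases hb' : b' = b₀
  · rw [hb, hb']
  · exfalso
    rw [hb, mb0, mb ⟨b', hb'⟩, hmm2 ⟨b', hb'⟩] at hbb
    exact (τ ⟨b', hb'⟩).2 ((M.e i).injective hbb).symm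
  · exfalso
    rw [hb', mb0, mb ⟨b, hb⟩, hmm2 ⟨b, hb⟩] at hbb
    exact (τ ⟨b, hb⟩).2 ((M.e i).injective hbb)
  · rw [mb ⟨b, hb⟩, hmm2 ⟨b, hb⟩, mb ⟨b', hb'⟩, hmm2 ⟨b', hb'⟩] at hbb
    have h1 := (M.e i).injective hbb
    have h2 : τ ⟨b, hb⟩ = τ ⟨b', hb'⟩ := Subtype.ext h1
    have h3 := σ.symm.injective h2
    exact congrArg Subtype.val h3

end

/-- L6 (STEP 1). -/
theorem hamStmt : HamStmt := by
  intro B W V _ _ _ M hM b₀ f hf hg i
  classical
  obtain ⟨m, hmi, hbij, hmf⟩ := exists_match hM.conn f hf hg i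
  refine ⟨m, ⟨hbij, ?_⟩, hmi⟩
  obtain ⟨φ, hφ⟩ := hf
  have hφ' : ∀ b, M.c (f b) b.1 = (φ b).1 := fun b => fo_some (hφ b)
  let own : B → V := fun b => if hb : b ≠ b₀ then M.c (f ⟨b, hb⟩) b else M.c (i + 1) b₀
  have own0 : own b₀ = M.c (i + 1) b₀ := by simp [own]
  have ownb : ∀ b : BOff b₀, own b.1 = (φ b).1 := by
    intro b
    simp only [own]
    rw [dif_pos b.2]
    exact hφ' b
  have hinj : Function.Injective own := by
    intro b b' hbb
    by_cases hb : b = b₀ <;> by_cases hb' : b' = b₀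
    · rw [hb, hb']
    · exfalso
      rw [hb, own0, ownb ⟨b', hb'⟩] at hbb
      exact (φ ⟨b', hb'⟩).2 _ hbb
    · exfalso
      rw [hb', own0, ownb ⟨b, hb⟩] at hbb
      exact (φ ⟨b, hb⟩).2 _ hbb.symm
    · rw [ownb ⟨b, hb⟩, ownb ⟨b', hb'⟩] at hbb
      exact congrArg Subtype.val (φ.injective (Subtype.ext hbb))
  have hne : ∀ j, j ≠ i + 1 → ∀ b, own b ≠ M.c j b₀ := by
    intro j hj b
    by_cases hb : b = b₀
    · rw [hb, own0]
      intro h
      exact hj (M.cls _ _ _ _ h).symm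
    · rw [ownb ⟨b, hb⟩]
      exact fun h => (φ ⟨b, hb⟩).2 j h.symm
  refine ham_of_own (toLab M) (gc_of_conn M hM.conn) m hbij own hinj ?_ b₀ (M.c i b₀)
    (M.c (i + 2) b₀) ?_ ⟨i, rfl⟩ ⟨i + 2, rfl⟩ (hne i (Bn.fne1 i).symm)
    (hne (i + 2) (Bn.fne21 i))
  · intro b
    by_cases hb : b = b₀
    · refine ⟨i + 1, ?_, ?_⟩
      · rw [hb, hmi]; exact Bn.fne1 i
      · rw [hb, own0]; rfl
    · refine ⟨f ⟨b, hb⟩, (hmf ⟨b, hb⟩).symm, ?_⟩
      rw [ownb ⟨b, hb⟩]
      exact (hφ' ⟨b, hb⟩).symm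
  · intro h
    exact Bn.fne2 i (M.cls _ _ _ _ h).symm

end Vale.Agent.P039.H551
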